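import Vale.Agent.P013.Rough2
import Vale.Agent.P013.Recip2

/-!
# P013: Jacobsthal's function, one bound for all cut-offs

There is an absolute constant `C` such that for all `n ≥ 2` (with `k = ω(n)` distinct prime
factors) and every cut-off `w` such that *either* `w ^ 4 ≥ k` *or* the prime factors `p ≥ w` of `n`
have reciprocal sum at most `3 / 2`, the following holds with `r` the number of prime factors
`p < w` of `n`: every block of `m ≥ C (r + 1) 2 ^ r k ^ (9 / 5)` consecutive integers contains an
integer coprime to `n`; in other words Jacobsthal's function `j(n)` (the least positive block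
length that always contains an integer coprime to `n`) is at most every such `m`.
-/

namespace Vale.Agent.Results.P013.CutoffUnion

theorem result : ∃ C : ℝ, 0 < C ∧ ∀ n : ℕ, 2 ≤ n → ∀ w : ℕ,
    (n.primeFactors.card ≤ w ^ 4 ∨
      ∑ p ∈ n.primeFactors.filter (fun p => w ≤ p), ((p : ℝ))⁻¹ ≤ 3 / 2) →
    ∀ m : ℕ,
    C * (((n.primeFactors.filter fun p => p < w).card : ℝ) + 1) *
      2 ^ (n.primeFactors.filter fun p => p < w).card *
      (n.primeFactors.card : ℝ) ^ ((9 : ℝ) / 5) ≤ m →
    (∀ a : ℤ, ∃ x ∈ Set.Ico a (a + m), IsCoprime x (n : ℤ)) ∧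
    sInf {l : ℕ | 0 < l ∧ ∀ a : ℤ, ∃ x ∈ Set.Ico a (a + l), IsCoprime x (n : ℤ)} ≤ m := by
  obtain ⟨C₁, hC₁, h₁⟩ := Vale.Agent.P013.few_small_primes
  obtain ⟨C₂, hC₂, h₂⟩ := Vale.Agent.P013.recip_sum_tail
  refine ⟨max C₁ C₂, lt_of_lt_of_le hC₁ (le_max_left _ _), ?_⟩
  intro n hn w hyp m hm
  have hkpos : 0 < n.primeFactors.card := by
    rw [Finset.card_pos, Nat.nonempty_primeFactors]
    omega
  have hk9 : 0 < (n.primeFactors.card : ℝ) ^ ((9 : ℝ) / 5) :=
    Real.rpow_pos_of_pos (by exact_mod_cast hkpos) _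
  have hblock : ∀ a : ℤ, ∃ x ∈ Set.Ico a (a + m), IsCoprime x (n : ℤ) := by
    rcases hyp with hw | hw
    · refine h₁ n hn m (le_trans ?_ hm)
      have hsub : (n.primeFactors.filter fun p => p ^ 4 < n.primeFactors.card) ⊆
          (n.primeFactors.filter fun p => p < w) := by
        intro p hp
        rw [Finset.mem_filter] at hp ⊢
        refine ⟨hp.1, ?_⟩
        by_contra hpw
        have h4 : w ^ 4 ≤ p ^ 4 := Nat.pow_le_pow_left (not_lt.1 hpw) 4
        omega
      have hcard := Finset.card_le_card hsub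
      have hcardR : ((n.primeFactors.filter fun p => p ^ 4 < n.primeFactors.card).card : ℝ) ≤
          ((n.primeFactors.filter fun p => p < w).card : ℝ) := by exact_mod_cast hcard
      have hpow : (2 : ℝ) ^ (n.primeFactors.filter fun p => p ^ 4 < n.primeFactors.card).card ≤
          2 ^ (n.primeFactors.filter fun p => p < w).card :=
        pow_le_pow_right₀ (by norm_num) hcard
      gcongr
      exact le_max_left _ _
    · refine h₂ n hn w hw m (le_trans ?_ hm)
      gcongr
      exact le_max_right _ _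
  refine ⟨hblock, Nat.sInf_le ⟨?_, hblock⟩⟩
  have hB : 0 < max C₁ C₂ * (((n.primeFactors.filter fun p => p < w).card : ℝ) + 1) *
      2 ^ (n.primeFactors.filter fun p => p < w).card *
      (n.primeFactors.card : ℝ) ^ ((9 : ℝ) / 5) := by
    have : 0 < max C₁ C₂ := lt_of_lt_of_le hC₁ (le_max_left _ _)
    positivity
  have : (0 : ℝ) < m := lt_of_lt_of_le hB hm
  exact_mod_cast this

end Vale.Agent.Results.P013.CutoffUnion
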