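import Vale.Agent.P013.Rough2

/-!
# P013: Jacobsthal's function for moduli with few small prime factors

There is an absolute constant `C` such that for every `n ≥ 2`, with `k` the number of distinct
prime factors of `n` and `r` the number of those prime factors `p` with `p ^ 4 < k`, every block of
`m ≥ C (r + 1) 2 ^ r k ^ (9 / 5)` consecutive integers contains an integer coprime to `n`.
-/

namespace Vale.Agent.Results.P013.FewSmallPrimes

theorem result : ∃ C : ℝ, 0 < C ∧ ∀ n : ℕ, 2 ≤ n → ∀ m : ℕ,
    C * (((n.primeFactors.filter fun p => p ^ 4 < n.primeFactors.card).card : ℝ) + 1) *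
      2 ^ (n.primeFactors.filter fun p => p ^ 4 < n.primeFactors.card).card *
      (n.primeFactors.card : ℝ) ^ ((9 : ℝ) / 5) ≤ m →
    ∀ a : ℤ, ∃ x ∈ Set.Ico a (a + m), IsCoprime x (n : ℤ) :=
  Vale.Agent.P013.few_small_primes

end Vale.Agent.Results.P013.FewSmallPrimes
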