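import Vale.Agent.P013.Recip2

/-!
# P013: Jacobsthal's function for moduli whose prime factors have reciprocal sum at most 3/2

There is an absolute constant `C` such that for every `n ≥ 2` with `∑_{p ∣ n} 1 / p ≤ 3 / 2`, every
block of `m ≥ C ω(n) ^ (9 / 5)` consecutive integers contains an integer coprime to `n`.
-/

namespace Vale.Agent.Results.P013.ReciprocalSum

theorem result : ∃ C : ℝ, 0 < C ∧ ∀ n : ℕ, 2 ≤ n →
    ∑ p ∈ n.primeFactors, ((p : ℝ))⁻¹ ≤ 3 / 2 → ∀ m : ℕ,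
    C * (n.primeFactors.card : ℝ) ^ ((9 : ℝ) / 5) ≤ m →
    ∀ a : ℤ, ∃ x ∈ Set.Ico a (a + m), IsCoprime x (n : ℤ) := by
  obtain ⟨C, hC, h⟩ := Vale.Agent.P013.recip_sum_tail
  refine ⟨C, hC, fun n hn hσ m hm a => h n hn 0 ?_ m ?_ a⟩
  · simpa using hσ
  · simpa using hm

end Vale.Agent.Results.P013.ReciprocalSum
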