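import Vale.Agent.P013.Recip2

/-!
# P013: Jacobsthal's function when the large prime factors have reciprocal sum at most 3/2

There is an absolute constant `C` such that for all `n ≥ 2` and all cut-offs `w`: if the prime
factors `p ≥ w` of `n` have reciprocal sum at most `3 / 2` and `r` is the number of prime factors
`p < w`, then every block of `m ≥ C (r + 1) 2 ^ r ω(n) ^ (9 / 5)` consecutive integers contains an
integer coprime to `n`.
-/

namespace Vale.Agent.Results.P013.ReciprocalSumTail

theorem result : ∃ C : ℝ, 0 < C ∧ ∀ n : ℕ, 2 ≤ n → ∀ w : ℕ,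
    ∑ p ∈ n.primeFactors.filter (fun p => w ≤ p), ((p : ℝ))⁻¹ ≤ 3 / 2 → ∀ m : ℕ,
    C * (((n.primeFactors.filter fun p => p < w).card : ℝ) + 1) *
      2 ^ (n.primeFactors.filter fun p => p < w).card *
      (n.primeFactors.card : ℝ) ^ ((9 : ℝ) / 5) ≤ m →
    ∀ a : ℤ, ∃ x ∈ Set.Ico a (a + m), IsCoprime x (n : ℤ) :=
  Vale.Agent.P013.recip_sum_tail

end Vale.Agent.Results.P013.ReciprocalSumTail
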